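/-
P235, K5 / SG, row [GENUS] (b) (helper522): a graph on an orientable surface of Euler genus at most `g`
has no `K_{3,n}` minor for `n ≥ 2 g + 3`. The steps for plane maps of helper611, helper582, helper105
and helper26, done for `SurfMap`.
-/
import Vale.Agent.P235.R2.H582.Contract
import Vale.Agent.P235.R2.H26.NoK33
import Vale.Agent.P235.H206.SurfDefs
import Vale.Agent.P235.H134.Grid.Defs

set_option linter.all false
set_option autoImplicit false

namespace Vale.Agent.P235.K5.SG.H522

open SimpleGraph Vale.Agent.P235.R2.H105 Vale.Agent.P235.Quo Equiv.Perm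
open Vale.Agent.P235.R2.H582 Vale.Agent.P235.R2.H582.Contract

theorem surfMap_iso {g : ℕ} {V W : Type} {G : SimpleGraph V} {G' : SimpleGraph W} (φ : G ≃g G')
    (h : ∃ σ : Equiv.Perm G.Dart, SurfMap g G σ) : ∃ σ : Equiv.Perm G'.Dart, SurfMap g G' σ := by
  obtain ⟨σ, hσ⟩ := h
  let e : G.Dart ≃ G'.Dart :=
    { toFun := fun d => ⟨(φ d.fst, φ d.snd), φ.map_adj_iff.2 d.adj⟩
      invFun := fun d => ⟨(φ.symm d.fst, φ.symm d.snd), φ.symm.map_adj_iff.2 d.adj⟩
      left_inv := fun d => by
        ext
        · exact φ.symm_apply_apply _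
        · exact φ.symm_apply_apply _
      right_inv := fun d => by
        ext
        · exact φ.apply_symm_apply _
        · exact φ.apply_symm_apply _ }
  let σ' : Equiv.Perm G'.Dart := (e.symm.trans σ).trans e
  have h1 : ∀ d, σ' (e d) = e (σ d) := fun d => by
    show e (σ (e.symm (e d))) = _
    rw [e.symm_apply_apply]
  have hp : ∀ (n : ℤ) (d : G.Dart), (σ' ^ n) (e d) = e ((σ ^ n) d) := by
    intro n
    induction n using Int.induction_on with
    | zero => intro d; rfl
    | succ n ih =>
      intro d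
      rw [zpow_add_one, Equiv.Perm.mul_apply, h1, ih, zpow_add_one, Equiv.Perm.mul_apply]
    | pred n ih =>
      intro d
      have h3 : σ'⁻¹ (e d) = e (σ⁻¹ d) := by
        rw [Equiv.Perm.inv_eq_iff_eq, h1, show σ (σ⁻¹ d) = d from Equiv.apply_symm_apply _ _]
      rw [zpow_sub_one, Equiv.Perm.mul_apply, h3, ih, zpow_sub_one, Equiv.Perm.mul_apply]
  have h2 : ∀ d, faceNext σ' (e d) = e (faceNext σ d) := fun d => h1 d.symm
  have hf : ∀ (n : ℤ) (d : G.Dart), (faceNext σ' ^ n) (e d) = e ((faceNext σ ^ n) d) := by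
    intro n
    induction n using Int.induction_on with
    | zero => intro d; rfl
    | succ n ih =>
      intro d
      rw [zpow_add_one, Equiv.Perm.mul_apply, h2, ih, zpow_add_one, Equiv.Perm.mul_apply]
    | pred n ih =>
      intro d
      have h3 : (faceNext σ')⁻¹ (e d) = e ((faceNext σ)⁻¹ d) := by
        rw [Equiv.Perm.inv_eq_iff_eq, h2,
          show faceNext σ ((faceNext σ)⁻¹ d) = d from Equiv.apply_symm_apply _ _]
      rw [zpow_sub_one, Equiv.Perm.mul_apply, h3, ih, zpow_sub_one, Equiv.Perm.mul_apply]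
  refine ⟨σ', ?_, ?_, ?_⟩
  · intro d
    obtain ⟨d, rfl⟩ := e.surjective d
    rw [h1]
    exact congrArg φ (hσ.fst d)
  · intro d d' hd
    obtain ⟨d, rfl⟩ := e.surjective d
    obtain ⟨d', rfl⟩ := e.surjective d'
    obtain ⟨n, hn⟩ := hσ.cyc d d' (φ.injective hd)
    exact ⟨n, by rw [hp, hn]⟩
  · have e1 : Nat.card V = Nat.card W := Nat.card_congr φ.toEquiv
    have e2 : Nat.card G.edgeSet = Nat.card G'.edgeSet := Nat.card_congr φ.mapEdgeSet
    have e3 : Nat.card (Quotient (Equiv.Perm.SameCycle.setoid (faceNext σ))) =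
        Nat.card (Quotient (Equiv.Perm.SameCycle.setoid (faceNext σ'))) := by
      refine Nat.card_congr (Quotient.congr e fun a b => ?_)
      constructor
      · rintro ⟨n, hn⟩
        exact ⟨n, by rw [hf, hn]⟩
      · rintro ⟨n, hn⟩
        rw [hf] at hn
        exact ⟨n, e.injective hn⟩
    rw [← e1, ← e2, ← e3]
    exact hσ.euler


/-- deleting an edge which is not a bridge -/
theorem surf_del {g : ℕ} {V : Type} [Finite V] {G : SimpleGraph V} {σ : Equiv.Perm G.Dart}
    (hσ : SurfMap g G σ) (e : G.Dart) (hc : (G.deleteEdges {e.edge}).Connected) :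
    ∃ σ' : Equiv.Perm (G.deleteEdges {e.edge}).Dart, SurfMap g (G.deleteEdges {e.edge}) σ' := by
  classical
  set G' := G.deleteEdges {e.edge} with hG'
  have hDart : Finite G.Dart := finite_dart
  have hDart' : Finite G'.Dart := finite_dart
  set τ := byp σ e with hτ
  set ρ := byp τ e.symm with hρ
  have hne : e ≠ e.symm := (symm_ne e).symm
  have hρe : ρ e = e := byp_fix hne byp_self
  have hρe' : ρ e.symm = e.symm := byp_self
  have hρn : ∀ x, x ≠ e → ρ x ≠ e := fun x h h' => h (ρ.injective (h'.trans hρe.symm))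
  have hρn' : ∀ x, x ≠ e.symm → ρ x ≠ e.symm := fun x h h' =>
    h (ρ.injective (h'.trans hρe'.symm))
  have hex : ∀ d : G'.Dart, ∃ d' : G'.Dart, up e d' = ρ (up e d) := fun d =>
    up_surj (hρn _ (up_ne d)) (hρn' _ (up_ne' d))
  choose f hf using hex
  have hfi : Function.Injective f := by
    intro d d' h
    apply up_inj (e := e)
    apply ρ.injective
    rw [← hf, ← hf, h]
  set σ' : Equiv.Perm G'.Dart := Equiv.ofBijective f (Finite.injective_iff_bijective.1 hfi)
    with hσ'
  have hup : ∀ d, up e (σ' d) = ρ (up e d) := hf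
  have hupf : ∀ d : G'.Dart, (up e d).fst = d.fst := fun _ => rfl
  have hups : ∀ d : G'.Dart, up e d.symm = (up e d).symm := fun _ => rfl
  -- rotation
  have hfst1 : ∀ x, (τ x).fst = x.fst :=
    fun x => byp_label (c := fun d : G.Dart => d.fst) (g := fun d : G.Dart => d.fst) hσ.fst rfl x
  have hfst2 : ∀ x, (ρ x).fst = x.fst :=
    fun x => byp_label (c := fun d : G.Dart => d.fst) (g := fun d : G.Dart => d.fst) hfst1 rfl x
  have hfst : ∀ d, (σ' d).fst = d.fst := by
    intro d
    rw [← hupf, hup, hfst2, hupf]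
  have hcyc : ∀ d d' : G'.Dart, d.fst = d'.fst → σ'.SameCycle d d' := by
    intro d d' h
    have h1 : σ.SameCycle (up e d) (up e d') := hσ.cyc _ _ h
    have h2 : ρ.SameCycle (up e d) (up e d') :=
      byp_same (byp_same h1 (up_ne d) (up_ne d')) (up_ne' d) (up_ne' d')
    obtain ⟨n, hn⟩ := h2.exists_nat_pow_eq
    have h3 : ∀ n : ℕ, up e ((σ' ^ n) d) = (ρ ^ n) (up e d) := by
      intro n
      induction n with
      | zero => rfl
      | succ n ih => rw [pow_succ', pow_succ', Equiv.Perm.mul_apply, Equiv.Perm.mul_apply, hup, ih]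
    refine ⟨n, ?_⟩
    rw [zpow_natCast]
    apply up_inj (e := e)
    rw [h3, hn]

  -- labels
  set F := Quotient (Equiv.Perm.SameCycle.setoid (faceNext σ)) with hF
  set F' := Quotient (Equiv.Perm.SameCycle.setoid (faceNext σ')) with hF'
  let q : G.Dart → F := Quotient.mk _
  have hqs : ∀ d d', q d = q d' ↔ (faceNext σ).SameCycle d d' := fun d d' => Quotient.eq
  have hq : ∀ d, q (faceNext σ d) = q d := fun d => Quotient.sound ⟨-1, by simp⟩
  set c : G.Dart → F := fun d => if q d = q e.symm then q e else q d with hcd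
  have hce : c e = q e := by
    simp only [hcd]
    split_ifs <;> rfl
  have hce' : c e.symm = q e := if_pos rfl
  have hcσ : ∀ y : G.Dart, c (σ y) = c y.symm := by
    intro y
    have h1 : q (σ y) = q y.symm := by
      have := hq y.symm
      rwa [show faceNext σ y.symm = σ y from congrArg σ (SimpleGraph.Dart.symm_symm y)] at this
    simp only [hcd, h1]
  have hcτ : ∀ y : G.Dart, c (τ y) = c y.symm :=
    byp_label (g := fun y : G.Dart => c y.symm) hcσ (by show c e.symm = c e; rw [hce, hce'])
  have hcρ : ∀ y : G.Dart, c (ρ y) = c y.symm :=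
    byp_label (g := fun y : G.Dart => c y.symm) hcτ (by
      show c e.symm.symm = c e.symm
      rw [SimpleGraph.Dart.symm_symm, hce, hce'])
  have hinv : ∀ d : G'.Dart, c (up e (faceNext σ' d)) = c (up e d) := by
    intro d
    show c (up e (σ' d.symm)) = _
    rw [hup, hcρ, hups, SimpleGraph.Dart.symm_symm]
  -- no vertex of the edge has degree one
  have hiso : ∀ x : G.Dart, (x = e ∨ x = e.symm) → σ x ≠ x := by
    intro x hx h
    have hxx : x.fst ≠ x.snd := x.adj.ne
    obtain ⟨w⟩ := hc.preconnected x.fst x.snd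
    obtain ⟨b, hb⟩ := nb w hxx
    have h1 : σ.SameCycle x (up e ⟨(x.fst, b), hb⟩) := hσ.cyc _ _ rfl
    have h2 : x = up e ⟨(x.fst, b), hb⟩ := h1.eq_of_left h
    rcases hx with hx | hx
    · exact up_ne _ (h2.symm.trans hx)
    · exact up_ne' _ (h2.symm.trans hx)
  -- a dart with a given label
  have hlab : ∀ x : G.Dart, ∃ d : G'.Dart, c (up e d) = c x := by
    intro x
    by_cases h1 : x = e
    · -- take the next dart of the face
      subst h1
      have h2 : faceNext σ x ≠ x := by
        intro h
        have h3 := congrArg (fun d : G.Dart => d.fst) h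
        have h4 : (faceNext σ x).fst = x.symm.fst := hσ.fst x.symm
        exact fst_symm_ne x (h4.symm.trans h3)
      have h3 : faceNext σ x ≠ x.symm := hiso x.symm (Or.inr rfl)
      obtain ⟨d, hd⟩ := up_surj h2 h3
      refine ⟨d, ?_⟩
      rw [hd]
      simp only [hcd, hq]
    by_cases h2 : x = e.symm
    · subst h2
      have h3 : faceNext σ e.symm ≠ e.symm := by
        intro h
        have h3 := congrArg (fun d : G.Dart => d.fst) h
        have h4 : (faceNext σ e.symm).fst = e.symm.symm.fst := hσ.fst e.symm.symm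
        exact fst_symm_ne e.symm (h4.symm.trans h3)
      have h4 : faceNext σ e.symm ≠ e := by
        have h5 := hiso e (Or.inl rfl)
        have h6 : faceNext σ e.symm = σ e := congrArg σ (SimpleGraph.Dart.symm_symm e)
        rw [h6]
        exact h5
      obtain ⟨d, hd⟩ := up_surj h4 h3
      refine ⟨d, ?_⟩
      rw [hd]
      simp only [hcd, hq]
    obtain ⟨d, hd⟩ := up_surj h1 h2
    exact ⟨d, by rw [hd]⟩
  have hFf : Finite F := inferInstance
  have hE : Nat.card G.edgeSet = Nat.card G'.edgeSet + 1 := by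
    have hfin : Finite G.edgeSet := Finite.of_surjective (fun d : G.Dart => H206.eOf d)
      H206.exists_dart
    have h1 : G'.edgeSet = G.edgeSet \ {e.edge} := SimpleGraph.edgeSet_deleteEdges _
    have h2 : e.edge ∈ G.edgeSet := e.edge_mem
    have h3 := Set.ncard_diff_singleton_add_one h2 (Set.toFinite G.edgeSet)
    rw [← h1] at h3
    exact h3.symm
  have hle : Nat.card F ≤ Nat.card F' + 1 := by
    -- all faces but the one of `e.symm` are labels
    let C : F' → F := Quotient.lift (fun d => c (up e d))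
      fun d d' h => R2.H105.const_cycle' (c := fun d => c (up e d)) hinv h
    have h1 : Function.Surjective (fun z : F' ⊕ Unit => match z with
        | .inl z => C z
        | .inr _ => q e.symm) := by
      intro f
      induction f using Quotient.inductionOn with
      | h x =>
      by_cases h2 : q x = q e.symm
      · exact ⟨.inr (), h2.symm⟩
      · obtain ⟨d, hd⟩ := hlab x
        refine ⟨.inl (Quotient.mk _ d), ?_⟩
        show c (up e d) = q x
        rw [hd]
        exact if_neg h2
    have h2 := Nat.card_le_card_of_surjective _ h1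
    rw [Nat.card_sum] at h2
    simpa using h2
  have heul := hσ.euler
  refine ⟨σ', hfst, hcyc, ?_⟩
  show Nat.card G'.edgeSet + 2 ≤ Nat.card V + Nat.card F' + g
  have h' : Nat.card G.edgeSet + 2 ≤ Nat.card V + Nat.card F + g := heul
  omega


/-- contraction of one edge whose ends have no common neighbour -/
theorem surf_con {g : ℕ} (V : Type) [Finite V] (G : SimpleGraph V) (σ : Equiv.Perm G.Dart) (x y : V)
    (hxy : G.Adj x y) (hG : G.Connected) (hσ : SurfMap g G σ) (hno : ∀ v, G.Adj x v → ¬ G.Adj y v)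
    (hcard : 3 ≤ Nat.card V) :
    ∃ σ' : Equiv.Perm (quo G (pinch x y hxy.ne)).Dart,
      SurfMap g (quo G (pinch x y hxy.ne)) σ' := by
  classical
  set π := pinch x y hxy.ne with hπ
  set Q := quo G π with hQ
  set e : G.Dart := ⟨(x, y), hxy⟩ with he
  set e' : G.Dart := ⟨(y, x), hxy.symm⟩ with he'
  have hD : Finite G.Dart := fin_dart G
  have hDQ : Finite Q.Dart := fin_dart Q
  have hes : e.symm = e' := rfl
  have hes' : e'.symm = e := rfl
  have hne : e ≠ e' := fun h => hxy.ne (congrArg (fun d : G.Dart => d.fst) h)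
  let P : {d : G.Dart // d ≠ e ∧ d ≠ e'} ≃ Q.Dart := Equiv.ofBijective (pd hxy) (pd_bij hxy hno)
  let ι : Q.Dart → G.Dart := fun d => (P.symm d).1
  have ι1 : ∀ d, ι d ≠ e := fun d => (P.symm d).2.1
  have ι2 : ∀ d, ι d ≠ e' := fun d => (P.symm d).2.2
  have ιinj : Function.Injective ι := fun a b h => P.symm.injective (Subtype.ext h)
  have ιsurj : ∀ z : G.Dart, z ≠ e → z ≠ e' → ∃ d, ι d = z := by
    intro z h1 h2
    refine ⟨P ⟨z, h1, h2⟩, ?_⟩
    show (P.symm (P ⟨z, h1, h2⟩)).1 = z
    rw [P.symm_apply_apply]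
  have ιfst : ∀ d : Q.Dart, π (ι d).fst = d.fst := by
    intro d
    have h1 : P (P.symm d) = d := P.apply_symm_apply d
    exact congrArg (fun d : Q.Dart => d.fst) h1
  have ιsnd : ∀ d : Q.Dart, π (ι d).snd = d.snd := by
    intro d
    have h1 : P (P.symm d) = d := P.apply_symm_apply d
    exact congrArg (fun d : Q.Dart => d.snd) h1
  have ιsymm : ∀ d : Q.Dart, ι d.symm = (ι d).symm := by
    intro d
    have h0 : (ι d).symm ≠ e ∧ (ι d).symm ≠ e' := by
      constructor
      · intro h
        apply ι2 d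
        rw [← hes, ← h, SimpleGraph.Dart.symm_symm]
      · intro h
        apply ι1 d
        rw [← hes', ← h, SimpleGraph.Dart.symm_symm]
    have h1 : d.symm = P ⟨(ι d).symm, h0⟩ := by
      refine SimpleGraph.Dart.ext _ _ (Prod.ext ?_ ?_)
      · exact (ιsnd d).symm
      · exact (ιfst d).symm
    show (P.symm d.symm).1 = _
    rw [h1, P.symm_apply_apply]
  -- rotations
  have hnc : ¬ σ.SameCycle e e' := by
    intro h
    have h1 : e.fst = e'.fst := const_cycle' (c := fun d : G.Dart => d.fst) hσ.fst h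
    exact hxy.ne h1
  set τ : Equiv.Perm G.Dart := σ * Equiv.swap e e' with hτ
  set ρ₁ := byp τ e with hρ₁
  set ρ := byp ρ₁ e' with hρ
  have hρe : ρ e = e := byp_fix hne byp_self
  have hρe' : ρ e' = e' := byp_self
  have hρn : ∀ z, z ≠ e → ρ z ≠ e := fun z h h' => h (ρ.injective (h'.trans hρe.symm))
  have hρn' : ∀ z, z ≠ e' → ρ z ≠ e' := fun z h h' => h (ρ.injective (h'.trans hρe'.symm))
  have hex : ∀ d : Q.Dart, ∃ d' : Q.Dart, ι d' = ρ (ι d) := fun d =>
    ιsurj _ (hρn _ (ι1 d)) (hρn' _ (ι2 d))
  choose f hf using hex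
  have hfi : Function.Injective f := by
    intro d d' h
    apply ιinj
    apply ρ.injective
    rw [← hf, ← hf, h]
  set σ' : Equiv.Perm Q.Dart := Equiv.ofBijective f (Finite.injective_iff_bijective.1 hfi) with hσ'
  have hup : ∀ d, ι (σ' d) = ρ (ι d) := hf
  -- labels of the rotation
  have hsw : ∀ {β : Type} (c g : G.Dart → β), (∀ z, c (σ z) = g z) →
      ∀ z, c (τ z) = g (Equiv.swap e e' z) := by
    intro β c g h z
    show c (σ (Equiv.swap e e' z)) = _
    rw [h]
  have hswe : Equiv.swap e e' e = e' := Equiv.swap_apply_left _ _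
  have hswe' : Equiv.swap e e' e' = e := Equiv.swap_apply_right _ _
  have hswn : ∀ z, z ≠ e → z ≠ e' → Equiv.swap e e' z = z := fun z h1 h2 =>
    Equiv.swap_apply_of_ne_of_ne h1 h2
  have hπf : ∀ z, π (Equiv.swap e e' z).fst = π z.fst := by
    intro z
    by_cases h1 : z = e
    · rw [h1, hswe]
      exact (pinch_xy hxy.ne).symm
    by_cases h2 : z = e'
    · rw [h2, hswe']
      exact pinch_xy hxy.ne
    rw [hswn z h1 h2]
  have hl0 : ∀ z, π (τ z).fst = π z.fst := by
    intro z
    have h1 := hsw (fun d : G.Dart => π d.fst) (fun d : G.Dart => π d.fst)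
      (fun z => by show π (σ z).fst = _; rw [hσ.fst]) z
    exact h1.trans (hπf z)
  have hl1 : ∀ z, π (ρ₁ z).fst = π z.fst := fun z =>
    byp_label (c := fun d : G.Dart => π d.fst) (g := fun d : G.Dart => π d.fst) hl0 rfl z
  have hl2 : ∀ z, π (ρ z).fst = π z.fst := fun z =>
    byp_label (c := fun d : G.Dart => π d.fst) (g := fun d : G.Dart => π d.fst) hl1 rfl z
  have hfst : ∀ d, (σ' d).fst = d.fst := by
    intro d
    rw [← ιfst, hup, hl2, ιfst]
  -- cyclic
  have hcyc : ∀ d d' : Q.Dart, d.fst = d'.fst → σ'.SameCycle d d' := by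
    intro d d' h
    have h0 : τ.SameCycle (ι d) (ι d') := by
      have h1 : π (ι d).fst = π (ι d').fst := by rw [ιfst, ιfst, h]
      rcases pinch_eq hxy.ne h1 with h2 | ⟨h2, h3⟩ | ⟨h2, h3⟩
      · exact merge_old hnc (hσ.cyc _ _ h2)
      · exact ((merge_old hnc (hσ.cyc (ι d) e h2)).trans (merge_same hnc)).trans
          (merge_old hnc (hσ.cyc e' (ι d') h3.symm))
      · exact ((merge_old hnc (hσ.cyc (ι d) e' h2)).trans (merge_same hnc).symm).trans
          (merge_old hnc (hσ.cyc e (ι d') h3.symm))
    have h2 : ρ.SameCycle (ι d) (ι d') :=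
      byp_same (byp_same h0 (ι1 d) (ι1 d')) (ι2 d) (ι2 d')
    obtain ⟨n, hn⟩ := h2.exists_nat_pow_eq
    have h3 : ∀ n : ℕ, ι ((σ' ^ n) d) = (ρ ^ n) (ι d) := by
      intro n
      induction n with
      | zero => rfl
      | succ n ih => rw [pow_succ', pow_succ', Equiv.Perm.mul_apply, Equiv.Perm.mul_apply, hup, ih]
    refine ⟨n, ?_⟩
    rw [zpow_natCast]
    apply ιinj
    rw [h3, hn]
  -- faces
  let q : G.Dart → Cy (faceNext σ) := Quotient.mk _
  have hq : ∀ d, q (faceNext σ d) = q d := fun d => Quotient.sound ⟨-1, by simp⟩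
  have hq1 : ∀ z : G.Dart, q (σ z) = q z.symm := by
    intro z
    have := hq z.symm
    rwa [show faceNext σ z.symm = σ z from congrArg σ (SimpleGraph.Dart.symm_symm z)] at this
  have hq2 : ∀ z, q (τ z) = q (Equiv.swap e e' z).symm :=
    hsw q (fun z => q z.symm) hq1
  have hq3 : ∀ z, q (ρ₁ z) = q (Equiv.swap e e' z).symm :=
    byp_label (g := fun z : G.Dart => q (Equiv.swap e e' z).symm) hq2 (by
      show q (Equiv.swap e e' e).symm = q e
      rw [hswe, hes'])
  have hq4 : ∀ z, q (ρ z) = q (Equiv.swap e e' z).symm :=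
    byp_label (g := fun z : G.Dart => q (Equiv.swap e e' z).symm) hq3 (by
      show q (Equiv.swap e e' e').symm = q e'
      rw [hswe', hes])
  have hinv : ∀ d : Q.Dart, q (ι (faceNext σ' d)) = q (ι d) := by
    intro d
    show q (ι (σ' d.symm)) = _
    rw [hup, hq4, hswn _ (ι1 _) (ι2 _), ιsymm, SimpleGraph.Dart.symm_symm]
  -- each face has another dart
  have hnof : ∀ z : G.Dart, faceNext σ z ≠ z := by
    intro z h
    have h1 : (faceNext σ z).fst = z.snd := hσ.fst z.symm
    rw [h] at h1
    exact z.adj.ne h1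
  have hdeg : ¬ (faceNext σ e = e' ∧ faceNext σ e' = e) := by
    rintro ⟨h1, h2⟩
    have hx : ∀ v, G.Adj x v → v = y := by
      intro v hv
      have h3 : σ.SameCycle e ⟨(x, v), hv⟩ := hσ.cyc _ _ rfl
      have h4 : σ e = e := h2
      have h5 := h3.eq_of_left h4
      exact (congrArg (fun d : G.Dart => d.snd) h5).symm
    have hy : ∀ v, G.Adj y v → v = x := by
      intro v hv
      have h3 : σ.SameCycle e' ⟨(y, v), hv⟩ := hσ.cyc _ _ rfl
      have h4 : σ e' = e' := h1
      have h5 := h3.eq_of_left h4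
      exact (congrArg (fun d : G.Dart => d.snd) h5).symm
    have hall : ∀ v : V, v = x ∨ v = y := by
      intro v
      obtain ⟨w⟩ := hG.preconnected v x
      have : ∀ u v : V, G.Walk u v → (v = x ∨ v = y) → (u = x ∨ u = y) := by
        intro u v w
        induction w with
        | nil => exact id
        | cons ha _ ih =>
          intro h
          rcases ih h with rfl | rfl
          · exact Or.inr (hx _ ha.symm)
          · exact Or.inl (hy _ ha.symm)
      exact this _ _ w (Or.inl rfl)
    have hle : Nat.card V ≤ 2 := by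
      have h6 : Function.Surjective (fun b : Bool => if b then x else y) := by
        intro v
        rcases hall v with rfl | rfl
        · exact ⟨true, rfl⟩
        · exact ⟨false, rfl⟩
      have := Nat.card_le_card_of_surjective _ h6
      simpa using this
    omega
  have hlab : ∀ F : Cy (faceNext σ), ∃ d : Q.Dart, q (ι d) = F := by
    intro F
    induction F using Quotient.inductionOn with
    | h z =>
    change ∃ d : Q.Dart, q (ι d) = q z
    by_cases h1 : z = e
    · by_cases h2 : faceNext σ e = e'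
      · have h3 : faceNext σ e' ≠ e := fun h => hdeg ⟨h2, h⟩
        obtain ⟨d, hd⟩ := ιsurj _ h3 (hnof e')
        refine ⟨d, ?_⟩
        rw [hd, hq, ← h2, hq, h1]
      · obtain ⟨d, hd⟩ := ιsurj _ (hnof e) h2
        exact ⟨d, by rw [hd, hq, h1]⟩
    by_cases h1' : z = e'
    · by_cases h2 : faceNext σ e' = e
      · have h3 : faceNext σ e ≠ e' := fun h => hdeg ⟨h, h2⟩
        obtain ⟨d, hd⟩ := ιsurj _ (hnof e) h3
        refine ⟨d, ?_⟩
        rw [hd, hq, ← h2, hq, h1']
      · obtain ⟨d, hd⟩ := ιsurj _ h2 (hnof e')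
        exact ⟨d, by rw [hd, hq, h1']⟩
    obtain ⟨d, hd⟩ := ιsurj z h1 h1'
    exact ⟨d, by rw [hd]⟩
  let C : Cy (faceNext σ') → Cy (faceNext σ) := Quotient.lift (fun d => q (ι d))
    fun d d' h => const_cycle' (c := fun d => q (ι d)) hinv h
  have hC : Function.Surjective C := by
    intro F
    obtain ⟨d, hd⟩ := hlab F
    exact ⟨Quotient.mk _ d, hd⟩
  have hle := Nat.card_le_card_of_surjective C hC
  -- counting
  have hVc : Nat.card V = Nat.card {v : V // v ≠ y} + 1 := by
    have : Fintype V := Fintype.ofFinite _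
    rw [Nat.card_eq_fintype_card, Nat.card_eq_fintype_card, Fintype.card_subtype_compl,
      Fintype.card_subtype_eq]
    have : 0 < Fintype.card V := Fintype.card_pos_iff.2 ⟨x⟩
    omega
  have hDc : Nat.card G.Dart = Nat.card Q.Dart + 2 := by
    have h1 : Nat.card (Q.Dart ⊕ Bool) = Nat.card G.Dart := by
      refine Nat.card_congr (Equiv.ofBijective
        (fun z : Q.Dart ⊕ Bool => match z with
          | .inl d => ι d
          | .inr true => e
          | .inr false => e') ⟨?_, ?_⟩)
      · rintro (a | _ | _) (b | _ | _) h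
        · exact congrArg _ (ιinj h)
        · exact absurd h (ι2 a)
        · exact absurd h (ι1 a)
        · exact absurd h.symm (ι2 b)
        · rfl
        · exact absurd h.symm hne
        · exact absurd h.symm (ι1 b)
        · exact absurd h hne
        · rfl
      · intro z
        by_cases h1 : z = e
        · exact ⟨.inr true, h1.symm⟩
        by_cases h2 : z = e'
        · exact ⟨.inr false, h2.symm⟩
        obtain ⟨d, hd⟩ := ιsurj z h1 h2
        exact ⟨.inl d, hd⟩
    rw [← h1, Nat.card_sum]
    simp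
  have hE1 := card_dart G
  have hE2 := card_dart Q
  have heul := hσ.euler
  refine ⟨σ', hfst, hcyc, ?_⟩
  show Nat.card Q.edgeSet + 2 ≤ Nat.card {v : V // v ≠ y} + Nat.card (Cy (faceNext σ')) + g
  have h' : Nat.card G.edgeSet + 2 ≤ Nat.card V + Nat.card (Cy (faceNext σ)) + g := heul
  omega


/-- quotients with connected fibres -/
theorem surf_quo {g : ℕ} (V W : Type) [Finite V] [Finite W] (G : SimpleGraph V) (π : V → W)
    (hc : G.Connected) (hP : ∃ σ : Equiv.Perm G.Dart, SurfMap g G σ)
    (hfib : ∀ w, (G.induce {v | π v = w}).Connected) (hW : 2 ≤ Nat.card W) :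
    ∃ σ' : Equiv.Perm (quo G π).Dart, SurfMap g (quo G π) σ' := by
  -- strong induction on the number of vertices, then on the number of edges
  have main : ∀ (n m : ℕ) (V W : Type) [Finite V] [Finite W] (G : SimpleGraph V) (π : V → W),
      Nat.card V = n → Nat.card G.edgeSet = m → G.Connected →
      (∃ σ : Equiv.Perm G.Dart, SurfMap g G σ) → (∀ w, (G.induce {v | π v = w}).Connected) →
      2 ≤ Nat.card W → ∃ σ' : Equiv.Perm (quo G π).Dart, SurfMap g (quo G π) σ' := by
    intro n
    induction n using Nat.strong_induction_on with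
    | _ n ihn =>
    intro m
    induction m using Nat.strong_induction_on with
    | _ m ihm =>
    intro V W _ _ G π hn hm hc hP hfib hW
    have hsurj : Function.Surjective π := fun w => by
      obtain ⟨v⟩ := (hfib w).nonempty
      exact ⟨v.1, v.2⟩
    by_cases hinj : Function.Injective π
    · -- an isomorphism
      refine surfMap_iso (G := G) ⟨Equiv.ofBijective π ⟨hinj, hsurj⟩, ?_⟩ hP
      intro a b
      constructor
      · rintro ⟨_, x, y, h1, h2, h3⟩
        have e1 := hinj h2
        have e2 := hinj h3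
        rwa [e1, e2] at h1
      · intro h
        exact ⟨fun hh => h.ne (hinj hh), a, b, h, rfl, rfl⟩
    -- an edge inside a fibre
    have hexy : ∃ x y, G.Adj x y ∧ π x = π y := by
      unfold Function.Injective at hinj
      push Not at hinj
      obtain ⟨u, v, huv, hne⟩ := hinj
      obtain ⟨w⟩ := hfib (π v) ⟨u, huv⟩ ⟨v, rfl⟩
      cases w with
      | nil => exact absurd rfl hne
      | @cons _ z _ ha p =>
        have ha' : G.Adj u z := ha
        exact ⟨u, z, ha', huv.trans z.2.symm⟩
    obtain ⟨x, y, hxy, hπ⟩ := hexy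
    by_cases hcom : ∃ v, G.Adj x v ∧ G.Adj y v
    · -- delete a parallel edge
      obtain ⟨v, hxv, hyv⟩ := hcom
      have hc' : (G.deleteEdges {s(y, v)}).Connected := by
        refine induce_univ_conn (tri_conn hxy hxv hyv (fun _ _ => Set.mem_univ _) ?_)
        exact (Iso.connected_iff (induceUnivIso G)).2 hc
      have hP' : ∃ σ' : Equiv.Perm (G.deleteEdges {s(y, v)}).Dart,
          SurfMap g (G.deleteEdges {s(y, v)}) σ' := by
        obtain ⟨σ, hσ⟩ := hP
        exact surf_del hσ ⟨(y, v), hyv⟩ hc'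
      have hlt : Nat.card (G.deleteEdges {s(y, v)}).edgeSet < m := by
        rw [← hm]
        have h1 : (G.deleteEdges {s(y, v)}).edgeSet ⊂ G.edgeSet := by
          refine ⟨edgeSet_mono (deleteEdges_le _), fun hh => ?_⟩
          have h2 : s(y, v) ∈ (G.deleteEdges {s(y, v)}).edgeSet := hh (G.mem_edgeSet.2 hyv)
          rw [edgeSet_deleteEdges] at h2
          exact h2.2 rfl
        exact Set.ncard_lt_ncard h1 (Set.toFinite _)
      have h3 := ihm _ hlt V W (G.deleteEdges {s(y, v)}) π hn rfl hc' hP'
        (fun w => tri_conn hxy hxv hyv (fun h1 _ => by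
          show π x = w
          rw [hπ]
          exact h1) (hfib w)) hW
      rwa [tri_quo hxy hxv hyv hπ] at h3
    · -- contract
      push Not at hcom
      have h3 : 3 ≤ Nat.card V := by
        have hz : ∃ z, π z ≠ π x := by
          by_contra hh
          push Not at hh
          have : Subsingleton W := ⟨fun a b => by
            obtain ⟨a, rfl⟩ := hsurj a
            obtain ⟨b, rfl⟩ := hsurj b
            rw [hh a, hh b]⟩
          have h4 : Nat.card W ≤ 1 := Finite.card_le_one_iff_subsingleton.2 this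
          omega
        obtain ⟨z, hz⟩ := hz
        have h4 : ({x, y, z} : Set V).ncard = 3 := by
          rw [Set.ncard_eq_three]
          exact ⟨x, y, z, hxy.ne, fun h => hz (by rw [h]), fun h => hz (by rw [← h, hπ]), rfl⟩
        rw [← h4, ← Set.ncard_univ]
        exact Set.ncard_le_ncard (Set.subset_univ _) (Set.toFinite _)
      obtain ⟨σ, hσ⟩ := hP
      have hP' := surf_con V G σ x y hxy hc hσ hcom h3
      have hcomp := pinch_comp hxy.ne π hπ
      have hlt : Nat.card {v : V // v ≠ y} < n := by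
        rw [← hn]
        exact Finite.card_subtype_lt (x := y) (by simp)
      have h5 := ihn _ hlt _ {v : V // v ≠ y} W (quo G (pinch x y hxy.ne)) (fun v => π v) rfl rfl
        (quo_conn hc (Vale.Agent.P235.Quo.pinch_surj hxy.ne)) hP'
        (fun w => quo_fib (Vale.Agent.P235.Quo.pinch_surj hxy.ne) (g := fun v : {v : V // v ≠ y} => π v) (by
          have h6 : {v | (fun v : {v : V // v ≠ y} => π v) (pinch x y hxy.ne v) = w} =
              {v | π v = w} := by
            ext v
            have h7 := congrFun hcomp v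
            show π (pinch x y hxy.ne v) = w ↔ π v = w
            rw [show π (pinch x y hxy.ne v) = π v from h7]
          rw [h6]
          exact hfib w)) hW
      rwa [quo_quo, hcomp] at h5
  exact main _ _ V W G π rfl rfl hc hP hfib hW


/-- a graph on `3 + n` vertices with all cross edges is connected -/
theorem kn_conn {n : ℕ} (hn : 0 < n) (Q : SimpleGraph (Fin 3 ⊕ Fin n))
    (h : ∀ i j, Q.Adj (.inl i) (.inr j)) : Q.Connected := by
  let z : Fin n := ⟨0, hn⟩
  have h1 : ∀ i, Q.Reachable (.inl i) (.inr z) := fun i => (h i z).reachable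
  have h2 : ∀ j, Q.Reachable (.inr j) (.inr z) := fun j =>
    (h 0 j).symm.reachable.trans (h 0 z).reachable
  have h3 : ∀ v, Q.Reachable v (.inr z) := by
    rintro (i | j)
    · exact h1 i
    · exact h2 j
  have : Nonempty (Fin 3 ⊕ Fin n) := ⟨.inl 0⟩
  exact ⟨fun u v => (h3 u).trans (h3 v).symm⟩


/-- the bipartite case: faces have at least four darts -/
theorem noK_bip {g n : ℕ} (hgn : 2 * g + 3 ≤ n) (Q : SimpleGraph (Fin 3 ⊕ Fin n))
    (h : ∀ i j, Q.Adj (.inl i) (.inr j))
    (hbip : ∀ u v, Q.Adj u v → (u.isLeft ↔ v.isRight)) (σ : Equiv.Perm Q.Dart)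
    (hP : SurfMap g Q σ) : False := by
  let z0 : Fin n := ⟨0, by omega⟩
  let z1 : Fin n := ⟨1, by omega⟩
  have hz : z1 ≠ z0 := fun e => by
    have := congrArg Fin.val e
    simp [z0, z1] at this
  classical
  have : Fintype Q.Dart := Fintype.ofFinite _
  set F := Quotient (Equiv.Perm.SameCycle.setoid (faceNext σ)) with hF
  have : Fintype F := Fintype.ofFinite _
  have hfst : ∀ d : Q.Dart, (faceNext σ d).fst = d.snd := fun d => hP.fst d.symm
  -- sides alternate
  have hside : ∀ d : Q.Dart, (d.fst.isLeft ↔ d.snd.isRight) := fun d => hbip _ _ d.adj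
  have hflip : ∀ d : Q.Dart, ((faceNext σ d).fst.isLeft = true ↔ ¬ (d.fst.isLeft = true)) := by
    intro d
    rw [hfst]
    have h1 := hside d
    rcases hu : d.fst with i | i <;> rcases hv : d.snd with j | j <;> simp [hu, hv] at h1 ⊢
  have hne1 : ∀ d : Q.Dart, faceNext σ d ≠ d := by
    intro d e
    have h1 := hflip d
    rw [e] at h1
    tauto
  -- no face of length two
  have hne2 : ∀ d : Q.Dart, faceNext σ (faceNext σ d) ≠ d := by
    intro d e
    have h1 : (faceNext σ d).snd = d.fst := by
      rw [← hfst, e]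
    have h2 : faceNext σ d = d.symm :=
      SimpleGraph.Dart.ext _ _ (Prod.ext (hfst d) h1)
    have h3 : σ d.symm = d.symm := h2
    -- another dart at the same vertex
    obtain ⟨d', hd', hne⟩ : ∃ d' : Q.Dart, d'.fst = d.symm.fst ∧ d' ≠ d.symm := by
      rcases hu : d.symm.fst with i | i
      · by_cases h4 : d.symm.snd = .inr z0
        · refine ⟨⟨(.inl i, .inr z1), h i z1⟩, rfl, fun e => ?_⟩
          have : (Sum.inr z1 : Fin 3 ⊕ Fin n) = d.symm.snd :=
            congrArg (fun x : Q.Dart => x.snd) e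
          rw [h4] at this
          exact absurd (Sum.inr.inj this) hz
        · refine ⟨⟨(.inl i, .inr z0), h i z0⟩, rfl, fun e => ?_⟩
          exact h4 (congrArg (fun x : Q.Dart => x.snd) e).symm
      · by_cases h4 : d.symm.snd = .inl 0
        · refine ⟨⟨(.inr i, .inl 1), (h 1 i).symm⟩, rfl, fun e => ?_⟩
          have : (Sum.inl 1 : Fin 3 ⊕ Fin n) = d.symm.snd :=
            congrArg (fun x : Q.Dart => x.snd) e
          rw [h4] at this
          exact absurd (Sum.inl.inj this) (by decide)
        · refine ⟨⟨(.inr i, .inl 0), (h 0 i).symm⟩, rfl, fun e => ?_⟩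
          exact h4 (congrArg (fun x : Q.Dart => x.snd) e).symm
    have h5 := hP.cyc d.symm d' hd'.symm
    have h6 : Function.IsFixedPt σ d.symm := h3
    exact hne (Equiv.Perm.SameCycle.eq_of_left h5 h6).symm
  have hne3 : ∀ d : Q.Dart, faceNext σ (faceNext σ (faceNext σ d)) ≠ d := by
    intro d e
    have h1 := hflip d
    have h2 := hflip (faceNext σ d)
    have h3 := hflip (faceNext σ (faceNext σ d))
    rw [e] at h3
    tauto
  -- every face has at least four darts
  have hfour : ∀ c : F, 4 ≤ (Finset.univ.filter fun d : Q.Dart => (Quotient.mk _ d : F) = c).card := by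
    intro c
    induction c using Quotient.inductionOn with
    | h d =>
      have hmk : ∀ d : Q.Dart, (Quotient.mk _ (faceNext σ d) : F) = Quotient.mk _ d := fun d =>
        Quotient.sound (Equiv.Perm.sameCycle_apply_left.2 (Equiv.Perm.SameCycle.refl _ _))
      have hsub : ({d, faceNext σ d, faceNext σ (faceNext σ d),
          faceNext σ (faceNext σ (faceNext σ d))} : Finset Q.Dart) ⊆
          Finset.univ.filter fun d' : Q.Dart => (Quotient.mk _ d' : F) = Quotient.mk _ d := by
        intro x hx
        simp only [Finset.mem_insert, Finset.mem_singleton] at hx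
        rw [Finset.mem_filter]
        refine ⟨Finset.mem_univ _, ?_⟩
        rcases hx with rfl | rfl | rfl | rfl
        · rfl
        · exact hmk _
        · rw [hmk, hmk]
        · rw [hmk, hmk, hmk]
      refine le_trans (le_of_eq ?_) (Finset.card_le_card hsub)
      have inj := (faceNext σ).injective
      rw [Finset.card_insert_of_notMem, Finset.card_insert_of_notMem,
        Finset.card_insert_of_notMem, Finset.card_singleton]
      · rw [Finset.mem_singleton]
        exact fun e => hne1 _ (inj (inj e)).symm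
      · simp only [Finset.mem_insert, Finset.mem_singleton, not_or]
        exact ⟨fun e => hne1 _ (inj e).symm, fun e => hne2 _ (inj e).symm⟩
      · simp only [Finset.mem_insert, Finset.mem_singleton, not_or]
        exact ⟨fun e => hne1 _ e.symm, fun e => hne2 _ e.symm, fun e => hne3 _ e.symm⟩
  have hcount : Fintype.card F * 4 ≤ Fintype.card Q.Dart := by
    have h1 := Finset.card_eq_sum_card_fiberwise (s := (Finset.univ : Finset Q.Dart))
      (t := (Finset.univ : Finset F)) (f := fun d => (Quotient.mk _ d : F))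
      (fun _ _ => Finset.mem_coe.2 (Finset.mem_univ _))
    rw [Finset.card_univ] at h1
    rw [h1]
    calc Fintype.card F * 4 = ∑ _c : F, 4 := by simp
      _ ≤ _ := Finset.sum_le_sum fun c _ => hfour c
  -- the number of edges
  have : Fintype Q.edgeSet := Fintype.ofFinite _
  have hdart : Fintype.card Q.Dart = 2 * Nat.card Q.edgeSet := by
    rw [← Nat.card_eq_fintype_card]
    exact card_dart Q
  have hnine : 3 * n ≤ Nat.card Q.edgeSet := by
    rw [Nat.card_eq_fintype_card, ← SimpleGraph.edgeFinset_card]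
    have h1 : (Finset.univ.image fun q : Fin 3 × Fin n =>
        (s(Sum.inl q.1, Sum.inr q.2) : Sym2 (Fin 3 ⊕ Fin n))) ⊆ Q.edgeFinset := by
      intro e he
      rw [Finset.mem_image] at he
      obtain ⟨q, _, rfl⟩ := he
      rw [SimpleGraph.mem_edgeFinset]
      exact h q.1 q.2
    refine le_trans (le_of_eq ?_) (Finset.card_le_card h1)
    rw [Finset.card_image_of_injective]
    · simp
    · rintro ⟨a, b⟩ ⟨c, d⟩ e
      rcases Sym2.eq_iff.1 e with ⟨h1, h2⟩ | ⟨h1, h2⟩
      · exact Prod.ext (Sum.inl.inj h1) (Sum.inr.inj h2)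
      · exact absurd h1 (by simp)
  have heul := hP.euler
  rw [Nat.card_eq_fintype_card (α := F)] at heul
  have h6 : Nat.card (Fin 3 ⊕ Fin n) = 3 + n := by simp
  rw [h6] at heul
  omega


/-- no graph on `3 + n` vertices with all cross edges is drawn on the surface -/
theorem noK {g n : ℕ} (hgn : 2 * g + 3 ≤ n) : ∀ Q : SimpleGraph (Fin 3 ⊕ Fin n),
    (∀ i j, Q.Adj (.inl i) (.inr j)) → ¬ ∃ σ : Equiv.Perm Q.Dart, SurfMap g Q σ := by
  intro Q
  induction Q using WellFoundedLT.induction with
  | ind Q ih =>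
  rintro h ⟨σ, hP⟩
  classical
  by_cases hbip : ∀ u v, Q.Adj u v → (u.isLeft ↔ v.isRight)
  · exact noK_bip hgn Q h hbip σ hP
  · push Not at hbip
    obtain ⟨u, v, huv, hb⟩ := hbip
    set e : Q.Dart := ⟨(u, v), huv⟩ with he
    have hcross : ∀ i j, (Q.deleteEdges {e.edge}).Adj (.inl i) (.inr j) := by
      intro i j
      rw [SimpleGraph.deleteEdges_adj]
      refine ⟨h i j, ?_⟩
      rw [Set.mem_singleton_iff]
      intro h1
      have h2 : s(Sum.inl i, Sum.inr j) = s(u, v) := h1
      rcases Sym2.eq_iff.1 h2 with ⟨rfl, rfl⟩ | ⟨rfl, rfl⟩ <;> simp at hb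
    have hc := kn_conn (by omega) _ hcross
    refine ih (Q.deleteEdges {e.edge}) ?_ hcross (surf_del hP e hc)
    refine lt_of_le_of_ne (SimpleGraph.deleteEdges_le _) ?_
    intro h1
    have h2 : (Q.deleteEdges {e.edge}).Adj u v := by rw [h1]; exact huv
    rw [SimpleGraph.deleteEdges_adj] at h2
    exact h2.2 rfl

/-- **[GENUS] (b).** A graph on an orientable surface of Euler genus at most `g` has no `K_{3,n}`
minor for `n ≥ 2 g + 3`. -/
theorem no_minor {g n : ℕ} (hgn : 2 * g + 3 ≤ n) {V : Type} [Finite V] {G : SimpleGraph V}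
    (hc : G.Connected) (hσ : ∃ σ : Equiv.Perm G.Dart, SurfMap g G σ) :
    ¬ Vale.Agent.P235.H134.IsMinor (completeBipartiteGraph (Fin 3) (Fin n)) G := by
  rintro ⟨μ, h1, h2, h3⟩
  have : Nonempty (Fin 3 ⊕ Fin n) := ⟨.inl 0⟩
  obtain ⟨π, h4, h5⟩ := exists_part hc _ μ h1 h2 rfl
  have hcard : 2 ≤ Nat.card (Fin 3 ⊕ Fin n) := by
    simp
    omega
  refine noK hgn (quo G π) (fun i j => ?_) (surf_quo V _ G π hc hσ h5 hcard)
  obtain ⟨x, hx, y, hy, hxy⟩ := h3 (.inl i) (.inr j) (by simp)
  exact ⟨by simp, x, y, hxy, h4 _ x hx, h4 _ y hy⟩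

end Vale.Agent.P235.K5.SG.H522
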